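import Mathlib

/-! The closing inequality of the flux argument for four cells, in pure real numbers. -/

namespace Vale.Agent.P226h2

/-- four times the squared area form of a triangle with squared sides `P1, P2, P3`, divided by four -/
noncomputable def Gam (P1 P2 P3 : ℝ) : ℝ :=
  (2 * (P1 * P2 + P1 * P3 + P2 * P3) - P1 ^ 2 - P2 ^ 2 - P3 ^ 2) / 4

/-- the square of the cap function -/
noncomputable def gq (p : ℝ) : ℝ := p ^ 2 * (1 - p) ^ 2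

/-- the derivative of `gq` -/
noncomputable def dg (p : ℝ) : ℝ := 2 * p * (1 - p) * (1 - 2 * p)

/-- the second order coefficient in the expansion of `gq` -/
noncomputable def Iq (p q : ℝ) : ℝ := p ^ 2 + 2 * p * q + 3 * q ^ 2 - 2 * p - 4 * q + 1

/-- the excess of the symmetric point -/
noncomputable def Lf (x : ℝ) : ℝ := (x - 1 / 4) ^ 2 * (28 * x ^ 2 - 38 * x + 13 / 4) / 27

lemma g_expand (p q : ℝ) : gq p = gq q + dg q * (p - q) + (p - q) ^ 2 * Iq p q := by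
  unfold gq dg Iq
  ring

lemma f_id (x : ℝ) : gq x + 3 * gq ((1 - x) / 3) = 9 / 64 + Lf x := by
  unfold gq Lf
  ring

lemma cap_half {n p : ℝ} (hc : ∀ c, 0 ≤ c → c ≤ 1 → n ≤ c * p + (1 - c) ^ 2 / 4) (h0 : 0 ≤ p)
    (h1 : p ≤ 1 / 2) : n ≤ p * (1 - p) := by
  have := hc (1 - 2 * p) (by linarith) (by linarith)
  nlinarith

lemma cap_quarter {n p : ℝ} (hc : ∀ c, 0 ≤ c → c ≤ 1 → n ≤ c * p + (1 - c) ^ 2 / 4) (h0 : 0 ≤ p) :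
    n ≤ 1 / 4 := by
  have := hc 0 le_rfl (by norm_num)
  nlinarith

lemma sq_le_gq {n p : ℝ} (h0 : 0 ≤ n) (h : n ≤ p * (1 - p)) : n ^ 2 ≤ gq p := by
  have := pow_le_pow_left₀ h0 h 2
  unfold gq
  nlinarith

lemma cap_sq {n p : ℝ} (hc : ∀ c, 0 ≤ c → c ≤ 1 → n ≤ c * p + (1 - c) ^ 2 / 4) (hn : 0 ≤ n)
    (h0 : 0 ≤ p) : n ^ 2 ≤ 4 / 27 * p := by
  rcases le_total p (1 / 2) with h | h
  · have h1 := sq_le_gq hn (cap_half hc h0 h)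
    have h2 : 0 ≤ (p - 1 / 3) ^ 2 * (4 / 3 - p) :=
      mul_nonneg (sq_nonneg _) (by linarith)
    have h3 : gq p = p * (p * (1 - p) ^ 2) := by unfold gq; ring
    have h4 : p * (1 - p) ^ 2 ≤ 4 / 27 := by nlinarith
    have h5 := mul_le_mul_of_nonneg_left h4 h0
    nlinarith
  · have h1 := cap_quarter hc h0
    have h2 : n ^ 2 ≤ (1 / 4) ^ 2 := pow_le_pow_left₀ hn h1 2
    nlinarith

lemma half_all {n0 n1 n2 n3 p0 p1 p2 p3 : ℝ}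
    (c0 : ∀ c, 0 ≤ c → c ≤ 1 → n0 ≤ c * p0 + (1 - c) ^ 2 / 4)
    (c1 : ∀ c, 0 ≤ c → c ≤ 1 → n1 ≤ c * p1 + (1 - c) ^ 2 / 4)
    (c2 : ∀ c, 0 ≤ c → c ≤ 1 → n2 ≤ c * p2 + (1 - c) ^ 2 / 4)
    (c3 : ∀ c, 0 ≤ c → c ≤ 1 → n3 ≤ c * p3 + (1 - c) ^ 2 / 4)
    (h0 : 0 ≤ n0) (h1 : 0 ≤ n1) (h2 : 0 ≤ n2) (h3 : 0 ≤ n3)
    (hp0 : 0 ≤ p0) (hp1 : 0 ≤ p1) (hp2 : 0 ≤ p2) (hp3 : 0 ≤ p3) (hsum : p0 + p1 + p2 + p3 = 1)
    (hF : 9 / 64 < n0 ^ 2 + n1 ^ 2 + n2 ^ 2 + n3 ^ 2) : p0 ≤ 1 / 2 := by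
  by_contra hc
  push Not at hc
  have e0 : n0 ^ 2 ≤ (1 / 4) ^ 2 := pow_le_pow_left₀ h0 (cap_quarter c0 hp0) 2
  have e1 := cap_sq c1 h1 hp1
  have e2 := cap_sq c2 h2 hp2
  have e3 := cap_sq c3 h3 hp3
  nlinarith

lemma I_big {x p : ℝ} (hx : 918 / 10000 ≤ x) (hx4 : x ≤ 1 / 4) (h1 : x ≤ p) (h2 : p ≤ 1 / 2) :
    Iq p ((1 - x) / 3) ≤ 0 := by
  unfold Iq
  set q := (1 - x) / 3 with hq
  have hq1 : q ≤ 4 / 13 := by rw [hq]; linarith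
  have hq2 : 1 / 4 ≤ q := by rw [hq]; linarith
  have hx' : x = 1 - 3 * q := by rw [hq]; ring
  -- the end points
  have e1 : (x ^ 2 + 2 * x * q + 3 * q ^ 2 - 2 * x - 4 * q + 1) = - (2 / 3) * x * (1 - x) := by
    rw [hq]; ring
  have e2 : ((1 / 2 : ℝ) ^ 2 + 2 * (1 / 2) * q + 3 * q ^ 2 - 2 * (1 / 2) - 4 * q + 1) ≤ 0 := by
    nlinarith
  have e1' : (x ^ 2 + 2 * x * q + 3 * q ^ 2 - 2 * x - 4 * q + 1) ≤ 0 := by
    rw [e1]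
    nlinarith
  have hd : 0 < 1 / 2 - x := by linarith
  have hid : (1 / 2 - x) * (p ^ 2 + 2 * p * q + 3 * q ^ 2 - 2 * p - 4 * q + 1) =
      (1 / 2 - p) * (x ^ 2 + 2 * x * q + 3 * q ^ 2 - 2 * x - 4 * q + 1) +
      (p - x) * ((1 / 2 : ℝ) ^ 2 + 2 * (1 / 2) * q + 3 * q ^ 2 - 2 * (1 / 2) - 4 * q + 1) +
      (1 / 2 - x) * ((p - x) * (p - 1 / 2)) := by ring
  have h3 : (1 / 2 - p) * (x ^ 2 + 2 * x * q + 3 * q ^ 2 - 2 * x - 4 * q + 1) ≤ 0 :=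
    mul_nonpos_of_nonneg_of_nonpos (by linarith) e1'
  have h4 : (p - x) * ((1 / 2 : ℝ) ^ 2 + 2 * (1 / 2) * q + 3 * q ^ 2 - 2 * (1 / 2) - 4 * q + 1) ≤ 0 :=
    mul_nonpos_of_nonneg_of_nonpos (by linarith) e2
  have h5 : (1 / 2 - x) * ((p - x) * (p - 1 / 2)) ≤ 0 :=
    mul_nonpos_of_nonneg_of_nonpos hd.le (mul_nonpos_of_nonneg_of_nonpos (by linarith) (by linarith))
  have h6 : (1 / 2 - x) * (p ^ 2 + 2 * p * q + 3 * q ^ 2 - 2 * p - 4 * q + 1) ≤ 0 := by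
    rw [hid]; linarith
  by_contra hc
  push Not at hc
  have := mul_pos hd hc
  linarith

lemma I_small {p q : ℝ} (h1 : 19 / 100 ≤ p) (h2 : p ≤ 1 / 2) (hq1 : 3027 / 10000 ≤ q)
    (hq2 : q ≤ 1 / 3) : Iq p q ≤ -(16 / 100) := by
  unfold Iq
  have e1 : (p - 19 / 100) * (p - 1 / 2) ≤ 0 :=
    mul_nonpos_of_nonneg_of_nonpos (by linarith) (by linarith)
  have e2 : (q - 3027 / 10000) * (q - 1 / 3) ≤ 0 :=
    mul_nonpos_of_nonneg_of_nonpos (by linarith) (by linarith)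
  -- the expression is bounded by a bilinear function
  have e3 : (p - 19 / 100) * (q - 3027 / 10000) ≥ 0 := mul_nonneg (by linarith) (by linarith)
  have e4 : (1 / 2 - p) * (1 / 3 - q) ≥ 0 := mul_nonneg (by linarith) (by linarith)
  have e5 : (p - 19 / 100) * (1 / 3 - q) ≥ 0 := mul_nonneg (by linarith) (by linarith)
  have e6 : (1 / 2 - p) * (q - 3027 / 10000) ≥ 0 := mul_nonneg (by linarith) (by linarith)
  nlinarith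

/-- if the smallest mass is not small the value is below the threshold -/
lemma large_x {x p1 p2 p3 : ℝ} (hx : 918 / 10000 ≤ x) (hx1 : x ≤ p1) (hx2 : x ≤ p2) (hx3 : x ≤ p3)
    (hp1 : p1 ≤ 1 / 2) (hp2 : p2 ≤ 1 / 2) (hp3 : p3 ≤ 1 / 2) (hsum : x + p1 + p2 + p3 = 1) :
    gq x + gq p1 + gq p2 + gq p3 ≤ 9 / 64 := by
  have hx4 : x ≤ 1 / 4 := by linarith
  set q := (1 - x) / 3 with hq
  have e1 := g_expand p1 q
  have e2 := g_expand p2 q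
  have e3 := g_expand p3 q
  have i1 := mul_nonpos_of_nonneg_of_nonpos (sq_nonneg (p1 - q)) (I_big hx hx4 hx1 hp1)
  have i2 := mul_nonpos_of_nonneg_of_nonpos (sq_nonneg (p2 - q)) (I_big hx hx4 hx2 hp2)
  have i3 := mul_nonpos_of_nonneg_of_nonpos (sq_nonneg (p3 - q)) (I_big hx hx4 hx3 hp3)
  rw [← hq] at i1 i2 i3
  have hs : (p1 - q) + (p2 - q) + (p3 - q) = 0 := by rw [hq]; linarith
  have hs2 : dg q * (p1 - q) + dg q * (p2 - q) + dg q * (p3 - q) = 0 := by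
    have : dg q * ((p1 - q) + (p2 - q) + (p3 - q)) = 0 := by rw [hs]; ring
    linarith
  have hL := f_id x
  rw [← hq] at hL
  have hLn : Lf x ≤ 0 := by
    unfold Lf
    have h1 : 28 * x ^ 2 - 38 * x + 13 / 4 ≤ 0 := by nlinarith
    have h2 := mul_nonpos_of_nonneg_of_nonpos (sq_nonneg (x - 1 / 4)) h1
    linarith
  linarith

/-- tangent at `2/5` -/
lemma tangent_four {u : ℝ} (h0 : 0 ≤ u) (h1 : u ≤ 1) : gq u ≤ 192 / 10000 + 96 / 1000 * u := by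
  have h2 : 0 ≤ (u - 2 / 5) ^ 2 * (12 / 100 + 12 / 10 * u - u ^ 2) :=
    mul_nonneg (sq_nonneg _) (by nlinarith)
  unfold gq
  nlinarith

/-- if a further mass is small the value is below the threshold -/
lemma small_y {x y u v : ℝ} (hx0 : 0 ≤ x) (hx : x < 918 / 10000) (hy0 : 0 ≤ y) (hy : y < 19 / 100)
    (hu0 : 0 ≤ u) (hu : u ≤ 1) (hv0 : 0 ≤ v) (hv : v ≤ 1) (hsum : x + y + u + v = 1) :
    gq x + gq y + gq u + gq v < 9 / 64 := by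
  have e1 := tangent_four hu0 hu
  have e2 := tangent_four hv0 hv
  have e3 : gq x ≤ 96 / 1000 * x := by
    have h1 : x * (1 - x) ^ 2 ≤ 96 / 1000 := by
      have : (1 - x) ^ 2 ≤ 1 := by nlinarith
      nlinarith
    have h2 := mul_le_mul_of_nonneg_left h1 hx0
    unfold gq
    nlinarith
  have e4 : gq y ≤ 96 / 1000 * y + 5446 / 1000000 := by
    have h1 : y * (1 - y) ^ 2 ≤ 12467 / 100000 := by
      have h3 : 0 ≤ (19 / 100 - y) * (y ^ 2 - (2 - 19 / 100) * y + (1 - 2 * (19 / 100) + (19 / 100) ^ 2)) := by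
        apply mul_nonneg (by linarith)
        nlinarith
      nlinarith
    have h2 := mul_le_mul_of_nonneg_left h1 hy0
    unfold gq
    nlinarith
  nlinarith

lemma sq_sub_le' (u w th : ℝ) (hth : 0 < th) : (u - w) ^ 2 ≤ (1 + th) * u ^ 2 + (1 + 1 / th) * w ^ 2 := by
  have h := div_nonneg (sq_nonneg (th * u + w)) hth.le
  have e : (th * u + w) ^ 2 / th = th * u ^ 2 + 2 * u * w + 1 / th * w ^ 2 := by
    field_simp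
    ring
  rw [e] at h
  nlinarith

lemma Lf_mono {xa x : ℝ} (h0 : 0 ≤ xa) (hM : 0 ≤ 28 * xa ^ 2 - 38 * xa + 13 / 4) (hx : xa ≤ x)
    (hx4 : x ≤ 1 / 4) : Lf x ≤ Lf xa := by
  unfold Lf
  have h1 : (x - 1 / 4) ^ 2 ≤ (xa - 1 / 4) ^ 2 := by nlinarith
  have h2 : 28 * x ^ 2 - 38 * x + 13 / 4 ≤ 28 * xa ^ 2 - 38 * xa + 13 / 4 := by nlinarith
  have h3 : (x - 1 / 4) ^ 2 * (28 * x ^ 2 - 38 * x + 13 / 4) ≤
      (xa - 1 / 4) ^ 2 * (28 * xa ^ 2 - 38 * xa + 13 / 4) := by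
    calc (x - 1 / 4) ^ 2 * (28 * x ^ 2 - 38 * x + 13 / 4)
        ≤ (x - 1 / 4) ^ 2 * (28 * xa ^ 2 - 38 * xa + 13 / 4) :=
          mul_le_mul_of_nonneg_left h2 (sq_nonneg _)
      _ ≤ (xa - 1 / 4) ^ 2 * (28 * xa ^ 2 - 38 * xa + 13 / 4) :=
          mul_le_mul_of_nonneg_right h1 hM
  linarith

/-- the closing estimate with bounds on the parameters -/
lemma bin_close {s sb La th G E Y T Gm : ℝ} (hs : 0 ≤ s) (hsb : s ≤ sb) (hsb8 : sb ≤ 1 / 8) (hth : 0 < th)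
    (hG : G ^ 2 ≤ 279 / 10000) (hE0 : 0 ≤ E) (hE : 16 / 100 * E ≤ La) (hY0 : 0 ≤ Y) (hY : Y ≤ La + sb ^ 2)
    (hT : 9 / 64 - 2 * sb ^ 2 ≤ T) (hT0 : 0 ≤ 9 / 64 - 2 * sb ^ 2)
    (hGm : T ^ 2 / 3 - 2 * ((1 + th) * G ^ 2 * E + (1 + 1 / th) * (2 / 3 * Y ^ 2)) ≤ 4 * Gm)
    (hchk : 4 * (8 / 3.14 * sb * (1 / 4 - sb)) ^ 2 < (9 / 64 - 2 * sb ^ 2) ^ 2 / 3 -
      2 * ((1 + th) * (279 / 10000) * (La / (16 / 100)) + (1 + 1 / th) * (2 / 3 * (La + sb ^ 2) ^ 2))) :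
    (8 / 3.14 * s * (1 / 4 - s)) ^ 2 < Gm := by
  have h1 : T ^ 2 ≥ (9 / 64 - 2 * sb ^ 2) ^ 2 := pow_le_pow_left₀ hT0 hT 2
  have hE' : E ≤ La / (16 / 100) := by
    rw [le_div_iff₀ (by norm_num)]
    linarith
  have h2 : G ^ 2 * E ≤ 279 / 10000 * (La / (16 / 100)) :=
    mul_le_mul hG hE' hE0 (by norm_num)
  have h3 : Y ^ 2 ≤ (La + sb ^ 2) ^ 2 := pow_le_pow_left₀ hY0 hY 2
  have hth2 : 0 < 1 + 1 / th := by positivity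
  have h4 : (1 + th) * G ^ 2 * E ≤ (1 + th) * (279 / 10000) * (La / (16 / 100)) := by
    have := mul_le_mul_of_nonneg_left h2 (by linarith : 0 ≤ 1 + th)
    calc (1 + th) * G ^ 2 * E = (1 + th) * (G ^ 2 * E) := by ring
      _ ≤ (1 + th) * (279 / 10000 * (La / (16 / 100))) := this
      _ = _ := by ring
  have h5 : (1 + 1 / th) * (2 / 3 * Y ^ 2) ≤ (1 + 1 / th) * (2 / 3 * (La + sb ^ 2) ^ 2) := by
    apply mul_le_mul_of_nonneg_left _ hth2.le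
    linarith
  have h6 : s * (1 / 4 - s) ≤ sb * (1 / 4 - sb) := by nlinarith
  have h7 : 0 ≤ s * (1 / 4 - s) := mul_nonneg hs (by linarith)
  have h8 : (8 / 3.14 * s * (1 / 4 - s)) ^ 2 ≤ (8 / 3.14 * sb * (1 / 4 - sb)) ^ 2 := by
    have e1 : 8 / 3.14 * s * (1 / 4 - s) = 8 / 3.14 * (s * (1 / 4 - s)) := by ring
    have e2 : 8 / 3.14 * sb * (1 / 4 - sb) = 8 / 3.14 * (sb * (1 / 4 - sb)) := by ring
    rw [e1, e2]
    apply pow_le_pow_left₀ (by positivity)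
    apply mul_le_mul_of_nonneg_left h6 (by norm_num)
  nlinarith

lemma dg_bounds {q : ℝ} (hq1 : 3027 / 10000 ≤ q) (hq2 : q ≤ 1 / 3) : dg q ^ 2 ≤ 279 / 10000 := by
  have hG0 : 0 ≤ dg q := by
    unfold dg
    apply mul_nonneg (mul_nonneg (by linarith) (by linarith)) (by linarith)
  have hG1 : dg q ≤ 167 / 1000 := by
    unfold dg
    nlinarith [mul_nonneg (sub_nonneg.2 hq1) (sub_nonneg.2 hq2),
      mul_nonneg (mul_nonneg (sub_nonneg.2 hq1) (sub_nonneg.2 hq2)) (by linarith : (0 : ℝ) ≤ q)]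
  have := pow_le_pow_left₀ hG0 hG1 2
  nlinarith

lemma defect {b p q G e : ℝ} (hb : b ^ 2 ≤ gq p) (ex : gq p = gq q + G * e + e ^ 2 * Iq p q)
    (hI : Iq p q ≤ -(16 / 100)) : 16 / 100 * e ^ 2 ≤ gq q + G * e - b ^ 2 := by
  have := mul_le_mul_of_nonneg_left hI (sq_nonneg e)
  nlinarith

/-- the lower bound for the squared area form -/
lemma gam_lower (Q G e1 e2 e3 y1 y2 y3 th : ℝ) (hes : e1 + e2 + e3 = 0) (hy1 : 0 ≤ y1) (hy2 : 0 ≤ y2)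
    (hy3 : 0 ≤ y3) (hth : 0 < th) :
    (3 * Q - (y1 + y2 + y3)) ^ 2 / 3 - 2 * ((1 + th) * G ^ 2 * (e1 ^ 2 + e2 ^ 2 + e3 ^ 2) +
      (1 + 1 / th) * (2 / 3 * (y1 + y2 + y3) ^ 2)) ≤
    4 * Gam (Q + G * e1 - y1) (Q + G * e2 - y2) (Q + G * e3 - y3) := by
  have he3 : e3 = -e1 - e2 := by linarith
  subst he3
  have hY : (y1 + y2 + y3) / 3 = (y1 + y2 + y3) / 3 := rfl
  have hGam : 4 * Gam (Q + G * e1 - y1) (Q + G * e2 - y2) (Q + G * (-e1 - e2) - y3) =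
      (3 * Q - (y1 + y2 + y3)) ^ 2 / 3 -
      2 * ((G * e1 - (y1 - (y1 + y2 + y3) / 3)) ^ 2 + (G * e2 - (y2 - (y1 + y2 + y3) / 3)) ^ 2 +
        (G * (-e1 - e2) - (y3 - (y1 + y2 + y3) / 3)) ^ 2) := by
    unfold Gam
    ring
  rw [hGam]
  have s1 := sq_sub_le' (G * e1) (y1 - (y1 + y2 + y3) / 3) th hth
  have s2 := sq_sub_le' (G * e2) (y2 - (y1 + y2 + y3) / 3) th hth
  have s3 := sq_sub_le' (G * (-e1 - e2)) (y3 - (y1 + y2 + y3) / 3) th hth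
  have hth2 : 0 ≤ 1 + 1 / th := by positivity
  have hyy : (y1 - (y1 + y2 + y3) / 3) ^ 2 + (y2 - (y1 + y2 + y3) / 3) ^ 2 +
      (y3 - (y1 + y2 + y3) / 3) ^ 2 ≤ 2 / 3 * (y1 + y2 + y3) ^ 2 := by
    nlinarith [mul_nonneg hy1 hy2, mul_nonneg hy1 hy3, mul_nonneg hy2 hy3]
  have h9 := mul_le_mul_of_nonneg_left hyy hth2
  have e9 : (1 + th) * (G * e1) ^ 2 + (1 + th) * (G * e2) ^ 2 + (1 + th) * (G * (-e1 - e2)) ^ 2 =
      (1 + th) * G ^ 2 * (e1 ^ 2 + e2 ^ 2 + (-e1 - e2) ^ 2) := by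
    ring
  have e10 : (1 + 1 / th) * ((y1 - (y1 + y2 + y3) / 3) ^ 2 + (y2 - (y1 + y2 + y3) / 3) ^ 2 +
      (y3 - (y1 + y2 + y3) / 3) ^ 2) = (1 + 1 / th) * (y1 - (y1 + y2 + y3) / 3) ^ 2 +
      (1 + 1 / th) * (y2 - (y1 + y2 + y3) / 3) ^ 2 + (1 + 1 / th) * (y3 - (y1 + y2 + y3) / 3) ^ 2 := by
    ring
  linarith

lemma J_mono {p r : ℝ} (h1 : p ≤ r) (h2 : r ≤ 1 / 2) (h0 : 0 ≤ p) : p * (1 - p) ≤ r * (1 - r) := by
  nlinarith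

lemma a_sq_le {a1 a2 a3 : ℝ} (ha1 : 0 ≤ a1) (ha2 : 0 ≤ a2) (ha3 : 0 ≤ a3) (ha : a1 + a2 + a3 = 1) :
    a1 ^ 2 + a2 ^ 2 + a3 ^ 2 ≤ 1 := by
  have h : (a1 + a2 + a3) ^ 2 = 1 := by rw [ha]; ring
  have e : (a1 + a2 + a3) ^ 2 = a1 ^ 2 + a2 ^ 2 + a3 ^ 2 + 2 * (a1 * a2) + 2 * (a1 * a3) + 2 * (a2 * a3) := by
    ring
  have h1 := mul_nonneg ha1 ha2
  have h2 := mul_nonneg ha1 ha3
  have h3 := mul_nonneg ha2 ha3
  linarith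

/-- The main part of the core, once the masses are localized. -/
lemma core_main {x s b1 b2 b3 a1 a2 a3 q G e1 e2 e3 : ℝ} (hs : 0 < s)
    (ha1 : 0 ≤ a1) (ha2 : 0 ≤ a2) (ha3 : 0 ≤ a3) (ha : a1 + a2 + a3 = 1)
    (hx : 0 ≤ x) (hxs : x < 918 / 10000) (hq : q = (1 - x) / 3) (hG2 : G ^ 2 ≤ 279 / 10000)
    (hes : e1 + e2 + e3 = 0) (hsx : s ≤ x * (1 - x))
    (d1 : 16 / 100 * e1 ^ 2 ≤ gq q + G * e1 - b1 ^ 2)
    (d2 : 16 / 100 * e2 ^ 2 ≤ gq q + G * e2 - b2 ^ 2)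
    (d3 : 16 / 100 * e3 ^ 2 ≤ gq q + G * e3 - b3 ^ 2)
    (hF : 9 / 64 < s ^ 2 + b1 ^ 2 + b2 ^ 2 + b3 ^ 2) :
    (8 / 3.14 * s * (1 / 4 - s)) ^ 2 <
      Gam (b1 ^ 2 - a1 ^ 2 * s ^ 2) (b2 ^ 2 - a2 ^ 2 * s ^ 2) (b3 ^ 2 - a3 ^ 2 * s ^ 2) := by
  have hx4 : x ≤ 1 / 4 := by linarith
  have hs0 := sq_le_gq hs.le hsx
  have hGe : G * e1 + G * e2 + G * e3 = 0 := by
    have : G * (e1 + e2 + e3) = 0 := by rw [hes]; ring
    linarith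
  have hLx := f_id x
  rw [← hq] at hLx
  -- the defects
  obtain ⟨v1, hv1⟩ : ∃ v, v = gq q + G * e1 - b1 ^ 2 := ⟨_, rfl⟩
  obtain ⟨v2, hv2⟩ : ∃ v, v = gq q + G * e2 - b2 ^ 2 := ⟨_, rfl⟩
  obtain ⟨v3, hv3⟩ : ∃ v, v = gq q + G * e3 - b3 ^ 2 := ⟨_, rfl⟩
  rw [← hv1] at d1
  rw [← hv2] at d2
  rw [← hv3] at d3
  have hv10 : 0 ≤ v1 := le_trans (by positivity) d1
  have hv20 : 0 ≤ v2 := le_trans (by positivity) d2
  have hv30 : 0 ≤ v3 := le_trans (by positivity) d3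
  have hWL : v1 + v2 + v3 < Lf x := by
    rw [hv1, hv2, hv3]
    linarith
  have hE0 : 0 ≤ e1 ^ 2 + e2 ^ 2 + e3 ^ 2 := by positivity
  have hEW : 16 / 100 * (e1 ^ 2 + e2 ^ 2 + e3 ^ 2) ≤ v1 + v2 + v3 := by linarith
  -- the weights
  have hs2 : 0 < s ^ 2 := by positivity
  have hy10 : 0 ≤ v1 + a1 ^ 2 * s ^ 2 := by positivity
  have hy20 : 0 ≤ v2 + a2 ^ 2 * s ^ 2 := by positivity
  have hy30 : 0 ≤ v3 + a3 ^ 2 * s ^ 2 := by positivity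
  have ha2s : a1 ^ 2 + a2 ^ 2 + a3 ^ 2 ≤ 1 := a_sq_le ha1 ha2 ha3 ha
  have has : (a1 ^ 2 + a2 ^ 2 + a3 ^ 2) * s ^ 2 ≤ 1 * s ^ 2 :=
    mul_le_mul_of_nonneg_right ha2s hs2.le
  obtain ⟨Y, hY⟩ : ∃ Y, Y = (v1 + a1 ^ 2 * s ^ 2) + (v2 + a2 ^ 2 * s ^ 2) + (v3 + a3 ^ 2 * s ^ 2) :=
    ⟨_, rfl⟩
  have hY0 : 0 ≤ Y := by rw [hY]; linarith
  have hYW : Y ≤ (v1 + v2 + v3) + s ^ 2 := by rw [hY]; linarith
  have e1P : gq q + G * e1 - (v1 + a1 ^ 2 * s ^ 2) = b1 ^ 2 - a1 ^ 2 * s ^ 2 := by rw [hv1]; ring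
  have e2P : gq q + G * e2 - (v2 + a2 ^ 2 * s ^ 2) = b2 ^ 2 - a2 ^ 2 * s ^ 2 := by rw [hv2]; ring
  have e3P : gq q + G * e3 - (v3 + a3 ^ 2 * s ^ 2) = b3 ^ 2 - a3 ^ 2 * s ^ 2 := by rw [hv3]; ring
  obtain ⟨T, hT⟩ : ∃ T, T = 3 * gq q - Y := ⟨_, rfl⟩
  have hTlow : 9 / 64 - 2 * s ^ 2 ≤ T := by
    rw [hT, hY, hv1, hv2, hv3]
    linarith
  have hbal : ∀ th : ℝ, 0 < th → T ^ 2 / 3 - 2 * ((1 + th) * G ^ 2 * (e1 ^ 2 + e2 ^ 2 + e3 ^ 2) +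
      (1 + 1 / th) * (2 / 3 * Y ^ 2)) ≤
      4 * Gam (b1 ^ 2 - a1 ^ 2 * s ^ 2) (b2 ^ 2 - a2 ^ 2 * s ^ 2) (b3 ^ 2 - a3 ^ 2 * s ^ 2) := by
    intro th hth
    have := gam_lower (gq q) G e1 e2 e3 _ _ _ th hes hy10 hy20 hy30 hth
    rw [e1P, e2P, e3P, ← hY, ← hT] at this
    exact this
  have hsx2 : ∀ xb : ℝ, x ≤ xb → xb ≤ 1 / 2 → s ≤ xb * (1 - xb) := by
    intro xb h4 h5
    exact hsx.trans (J_mono h4 h5 hx)
  have happly : ∀ xa xb th : ℝ, 0 ≤ xa → 0 ≤ 28 * xa ^ 2 - 38 * xa + 13 / 4 → xa ≤ x → x ≤ xb →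
      xb ≤ 1 / 2 → xb * (1 - xb) ≤ 1 / 8 → 0 < th → 0 ≤ 9 / 64 - 2 * (xb * (1 - xb)) ^ 2 →
      4 * (8 / 3.14 * (xb * (1 - xb)) * (1 / 4 - xb * (1 - xb))) ^ 2 <
        (9 / 64 - 2 * (xb * (1 - xb)) ^ 2) ^ 2 / 3 -
        2 * ((1 + th) * (279 / 10000) * (Lf xa / (16 / 100)) +
          (1 + 1 / th) * (2 / 3 * (Lf xa + (xb * (1 - xb)) ^ 2) ^ 2)) →
      (8 / 3.14 * s * (1 / 4 - s)) ^ 2 <
        Gam (b1 ^ 2 - a1 ^ 2 * s ^ 2) (b2 ^ 2 - a2 ^ 2 * s ^ 2) (b3 ^ 2 - a3 ^ 2 * s ^ 2) := by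
    intro xa xb th h0 hM hxa hxb hxb2 hs8' hth hT0 hchk
    have hLa := Lf_mono h0 hM hxa hx4
    have hsb := hsx2 xb hxb hxb2
    have hs2b : s ^ 2 ≤ (xb * (1 - xb)) ^ 2 := pow_le_pow_left₀ hs.le hsb 2
    exact bin_close (sb := xb * (1 - xb)) (La := Lf xa) (th := th) (G := G)
      (E := e1 ^ 2 + e2 ^ 2 + e3 ^ 2) (Y := Y) (T := T)
      hs.le hsb hs8' hth hG2 hE0 (by linarith) hY0 (by linarith) (by linarith) hT0 (hbal th hth) hchk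
  rcases le_total x (4 / 100) with hb | hb
  · refine happly 0 (4 / 100) (1 / 2) le_rfl (by norm_num) hx hb (by norm_num) (by norm_num)
      (by norm_num) (by norm_num) ?_
    unfold Lf
    norm_num
  rcases le_total x (6 / 100) with hb2 | hb2
  · refine happly (4 / 100) (6 / 100) 1 (by norm_num) (by norm_num) hb hb2 (by norm_num) (by norm_num)
      (by norm_num) (by norm_num) ?_
    unfold Lf
    norm_num
  rcases le_total x (75 / 1000) with hb3 | hb3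
  · refine happly (6 / 100) (75 / 1000) 1 (by norm_num) (by norm_num) hb2 hb3 (by norm_num) (by norm_num)
      (by norm_num) (by norm_num) ?_
    unfold Lf
    norm_num
  rcases le_total x (87 / 1000) with hb4 | hb4
  · refine happly (75 / 1000) (87 / 1000) 1 (by norm_num) (by norm_num) hb3 hb4 (by norm_num) (by norm_num)
      (by norm_num) (by norm_num) ?_
    unfold Lf
    norm_num
  · refine happly (87 / 1000) (918 / 10000) 1 (by norm_num) (by norm_num) hb4 hxs.le (by norm_num) (by norm_num)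
      (by norm_num) (by norm_num) ?_
    unfold Lf
    norm_num

/-- The core of the closing estimate, for the smallest mass `x`. -/
theorem core (x p1 p2 p3 s b1 b2 b3 a1 a2 a3 : ℝ) (hs : 0 < s) (h1 : s ≤ b1) (h2 : s ≤ b2) (h3 : s ≤ b3)
    (ha1 : 0 ≤ a1) (ha2 : 0 ≤ a2) (ha3 : 0 ≤ a3) (ha : a1 + a2 + a3 = 1)
    (hx : 0 ≤ x) (hx1 : x ≤ p1) (hx2 : x ≤ p2) (hx3 : x ≤ p3)
    (hp1 : p1 ≤ 1 / 2) (hp2 : p2 ≤ 1 / 2) (hp3 : p3 ≤ 1 / 2) (hsum : x + p1 + p2 + p3 = 1)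
    (hsx : s ≤ x * (1 - x)) (hb1 : b1 ≤ p1 * (1 - p1)) (hb2 : b2 ≤ p2 * (1 - p2))
    (hb3 : b3 ≤ p3 * (1 - p3)) (hF : 9 / 64 < s ^ 2 + b1 ^ 2 + b2 ^ 2 + b3 ^ 2) :
    s < 1 / 8 ∧ (8 / 3.14 * s * (1 / 4 - s)) ^ 2 <
      Gam (b1 ^ 2 - a1 ^ 2 * s ^ 2) (b2 ^ 2 - a2 ^ 2 * s ^ 2) (b3 ^ 2 - a3 ^ 2 * s ^ 2) := by
  have hs0 := sq_le_gq hs.le hsx
  have hb1' := sq_le_gq (hs.le.trans h1) hb1
  have hb2' := sq_le_gq (hs.le.trans h2) hb2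
  have hb3' := sq_le_gq (hs.le.trans h3) hb3
  -- the smallest mass is small
  have hxs : x < 918 / 10000 := by
    by_contra hc
    push Not at hc
    have := large_x hc hx1 hx2 hx3 hp1 hp2 hp3 hsum
    linarith
  have hp10 : 0 ≤ p1 := hx.trans hx1
  have hp20 : 0 ≤ p2 := hx.trans hx2
  have hp30 : 0 ≤ p3 := hx.trans hx3
  -- the other masses are not small
  have hl1 : 19 / 100 ≤ p1 := by
    by_contra hc
    push Not at hc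
    have := small_y hx hxs hp10 hc hp20 (by linarith) hp30 (by linarith) (by linarith)
    linarith
  have hl2 : 19 / 100 ≤ p2 := by
    by_contra hc
    push Not at hc
    have := small_y hx hxs hp20 hc hp10 (by linarith) hp30 (by linarith) (by linarith)
    linarith
  have hl3 : 19 / 100 ≤ p3 := by
    by_contra hc
    push Not at hc
    have := small_y hx hxs hp30 hc hp10 (by linarith) hp20 (by linarith) (by linarith)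
    linarith
  obtain ⟨q, hq⟩ : ∃ q, q = (1 - x) / 3 := ⟨_, rfl⟩
  have hq1 : 3027 / 10000 ≤ q := by rw [hq]; linarith
  have hq2 : q ≤ 1 / 3 := by rw [hq]; linarith
  have hes : (p1 - q) + (p2 - q) + (p3 - q) = 0 := by rw [hq]; linarith
  have hs8 : s < 1 / 8 := by
    have h5 : x * (1 - x) < 1 / 8 := by nlinarith
    linarith
  refine ⟨hs8, ?_⟩
  exact core_main (q := q) (G := dg q) (e1 := p1 - q) (e2 := p2 - q) (e3 := p3 - q) hs ha1 ha2 ha3 ha hx hxs hq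
    (dg_bounds hq1 hq2) hes hsx
    (defect hb1' (g_expand p1 q) (I_small hl1 hp1 hq1 hq2))
    (defect hb2' (g_expand p2 q) (I_small hl2 hp2 hq1 hq2))
    (defect hb3' (g_expand p3 q) (I_small hl3 hp3 hq1 hq2)) hF

/-- The closing inequality of the flux argument for four cells. -/
theorem k4_close (s b1 b2 b3 a1 a2 a3 p0 p1 p2 p3 : ℝ) (hs : 0 < s) (h1 : s ≤ b1) (h2 : s ≤ b2)
    (h3 : s ≤ b3) (ha1 : 0 ≤ a1) (ha2 : 0 ≤ a2) (ha3 : 0 ≤ a3) (ha : a1 + a2 + a3 = 1)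
    (hp0 : 0 ≤ p0) (hp1 : 0 ≤ p1) (hp2 : 0 ≤ p2) (hp3 : 0 ≤ p3) (hsum : p0 + p1 + p2 + p3 = 1)
    (c0 : ∀ c, 0 ≤ c → c ≤ 1 → s ≤ c * p0 + (1 - c) ^ 2 / 4)
    (c1 : ∀ c, 0 ≤ c → c ≤ 1 → b1 ≤ c * p1 + (1 - c) ^ 2 / 4)
    (c2 : ∀ c, 0 ≤ c → c ≤ 1 → b2 ≤ c * p2 + (1 - c) ^ 2 / 4)
    (c3 : ∀ c, 0 ≤ c → c ≤ 1 → b3 ≤ c * p3 + (1 - c) ^ 2 / 4)
    (hF : 9 / 64 < s ^ 2 + b1 ^ 2 + b2 ^ 2 + b3 ^ 2) :
    s < 1 / 8 ∧ (8 / 3.14 * s * (1 / 4 - s)) ^ 2 <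
      Gam (b1 ^ 2 - a1 ^ 2 * s ^ 2) (b2 ^ 2 - a2 ^ 2 * s ^ 2) (b3 ^ 2 - a3 ^ 2 * s ^ 2) := by
  have hn1 := hs.le.trans h1
  have hn2 := hs.le.trans h2
  have hn3 := hs.le.trans h3
  have hq0 : p0 ≤ 1 / 2 := half_all c0 c1 c2 c3 hs.le hn1 hn2 hn3 hp0 hp1 hp2 hp3 hsum hF
  have hq1 : p1 ≤ 1 / 2 := half_all c1 c0 c2 c3 hn1 hs.le hn2 hn3 hp1 hp0 hp2 hp3 (by linarith) (by linarith)
  have hq2 : p2 ≤ 1 / 2 := half_all c2 c1 c0 c3 hn2 hn1 hs.le hn3 hp2 hp1 hp0 hp3 (by linarith) (by linarith)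
  have hq3 : p3 ≤ 1 / 2 := half_all c3 c1 c2 c0 hn3 hn1 hn2 hs.le hp3 hp1 hp2 hp0 (by linarith) (by linarith)
  have e0 := cap_half c0 hp0 hq0
  have e1 := cap_half c1 hp1 hq1
  have e2 := cap_half c2 hp2 hq2
  have e3 := cap_half c3 hp3 hq3
  by_cases m0 : p0 ≤ p1 ∧ p0 ≤ p2 ∧ p0 ≤ p3
  · exact core p0 p1 p2 p3 s b1 b2 b3 a1 a2 a3 hs h1 h2 h3 ha1 ha2 ha3 ha hp0 m0.1 m0.2.1 m0.2.2
      hq1 hq2 hq3 hsum e0 e1 e2 e3 hF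
  by_cases m1 : p1 ≤ p0 ∧ p1 ≤ p2 ∧ p1 ≤ p3
  · exact core p1 p0 p2 p3 s b1 b2 b3 a1 a2 a3 hs h1 h2 h3 ha1 ha2 ha3 ha hp1 m1.1 m1.2.1 m1.2.2
      hq0 hq2 hq3 (by linarith) (h1.trans e1) (e1.trans (J_mono m1.1 hq0 hp1)) e2 e3 hF
  by_cases m2 : p2 ≤ p0 ∧ p2 ≤ p1 ∧ p2 ≤ p3
  · exact core p2 p1 p0 p3 s b1 b2 b3 a1 a2 a3 hs h1 h2 h3 ha1 ha2 ha3 ha hp2 m2.2.1 m2.1 m2.2.2
      hq1 hq0 hq3 (by linarith) (h2.trans e2) e1 (e2.trans (J_mono m2.1 hq0 hp2)) e3 hF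
  · have m3 : p3 ≤ p1 ∧ p3 ≤ p2 ∧ p3 ≤ p0 := by
      by_contra hc
      have : False := by
        simp only [not_and_or, not_le] at m0 m1 m2 hc
        rcases hc with hc | hc | hc <;> rcases m0 with m0 | m0 | m0 <;> rcases m1 with m1 | m1 | m1 <;>
          rcases m2 with m2 | m2 | m2 <;> linarith
      exact this
    exact core p3 p1 p2 p0 s b1 b2 b3 a1 a2 a3 hs h1 h2 h3 ha1 ha2 ha3 ha hp3 m3.1 m3.2.1 m3.2.2
      hq1 hq2 hq0 (by linarith) (h3.trans e3) e1 e2 (e3.trans (J_mono m3.2.2 hq0 hp3)) hF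

end Vale.Agent.P226h2
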