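import Vale.Agent.P226h2.Bathtub
import Vale.Agent.P226h14.Slice

/-!
# The flux bound of the smallest vertex at four cells

The cone over a triangle: the first moment of the cone along its axis is at most the first moment of
the round cone with the same section areas.
-/

open MeasureTheory ProbabilityTheory Real Set Filter Topology
open scoped RealInnerProductSpace ENNReal NNReal

namespace Vale.Agent.P226h2

open Vale.Agent.P226h14

/-- the triangle of the section -/
def tri (p1 p q h1 h2 h3 : ℝ) : Set (ℝ × ℝ) :=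
  {z | p1 * z.1 ≤ h1 ∧ q * z.1 + p * z.2 ≤ h2 ∧ -(p1 + q) * z.1 - p * z.2 ≤ h3}

lemma measurableSet_tri (p1 p q h1 h2 h3 : ℝ) : MeasurableSet (tri p1 p q h1 h2 h3) := by
  unfold tri
  apply IsClosed.measurableSet
  have h1 : IsClosed {z : ℝ × ℝ | p1 * z.1 ≤ h1} := isClosed_le (by fun_prop) continuous_const
  have h2 : IsClosed {z : ℝ × ℝ | q * z.1 + p * z.2 ≤ h2} := isClosed_le (by fun_prop) continuous_const
  have h3 : IsClosed {z : ℝ × ℝ | -(p1 + q) * z.1 - p * z.2 ≤ h3} := isClosed_le (by fun_prop) continuous_const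
  exact h1.inter (h2.inter h3)

/-- the area of the triangle -/
lemma volume_tri {p1 p : ℝ} (q h1 h2 h3 : ℝ) (hp1 : 0 < p1) (hp : 0 < p) (hH : 0 ≤ h1 + h2 + h3) :
    volume (tri p1 p q h1 h2 h3) ≤ ENNReal.ofReal ((h1 + h2 + h3) ^ 2 / (2 * p1 * p)) := by
  set a0 := -(h2 + h3) / p1 with ha0
  set b0 := h1 / p1 with hb0
  have hab : a0 ≤ b0 := by
    rw [ha0, hb0, div_le_div_iff_of_pos_right hp1]
    linarith
  have hsec : ∀ x : ℝ, volume (Prod.mk x ⁻¹' tri p1 p q h1 h2 h3) =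
      (Icc a0 b0).indicator (fun x => ENNReal.ofReal ((h2 + h3 + p1 * x) / p)) x := by
    intro x
    by_cases hx : p1 * x ≤ h1
    · have h1' : Prod.mk x ⁻¹' tri p1 p q h1 h2 h3 =
          Icc ((-h3 - (p1 + q) * x) / p) ((h2 - q * x) / p) := by
        ext y
        simp only [tri, mem_preimage, mem_ofPred_eq, mem_Icc]
        rw [div_le_iff₀ hp, le_div_iff₀ hp]
        constructor
        · rintro ⟨_, h2', h3'⟩
          constructor <;> nlinarith
        · rintro ⟨h2', h3'⟩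
          refine ⟨hx, ?_, ?_⟩ <;> nlinarith
      rw [h1', Real.volume_Icc]
      have h2' : (h2 - q * x) / p - (-h3 - (p1 + q) * x) / p = (h2 + h3 + p1 * x) / p := by
        field_simp
        ring
      rw [h2']
      by_cases hxa : a0 ≤ x
      · rw [indicator_of_mem]
        refine ⟨hxa, ?_⟩
        rw [hb0, le_div_iff₀ hp1]
        linarith
      · rw [indicator_of_notMem (fun h => hxa h.1)]
        push Not at hxa
        rw [ha0, lt_div_iff₀ hp1] at hxa
        apply ENNReal.ofReal_of_nonpos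
        apply div_nonpos_of_nonpos_of_nonneg _ hp.le
        linarith
    · have h1' : Prod.mk x ⁻¹' tri p1 p q h1 h2 h3 = ∅ := by
        ext y
        simp only [tri, mem_preimage, mem_ofPred_eq, mem_empty_iff_false, iff_false]
        exact fun h => hx h.1
      rw [h1', measure_empty, indicator_of_notMem]
      rintro ⟨_, h⟩
      rw [hb0, le_div_iff₀ hp1] at h
      exact hx (by linarith)
  rw [Measure.volume_eq_prod, Measure.prod_apply (measurableSet_tri _ _ _ _ _ _)]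
  simp_rw [hsec]
  rw [lintegral_indicator measurableSet_Icc]
  have hcont : Continuous (fun x : ℝ => (h2 + h3 + p1 * x) / p) := by fun_prop
  have hnn : 0 ≤ᵐ[volume.restrict (Icc a0 b0)] (fun x : ℝ => (h2 + h3 + p1 * x) / p) := by
    rw [EventuallyLE, ae_restrict_iff' measurableSet_Icc]
    refine Eventually.of_forall fun x hx => ?_
    have := hx.1
    rw [ha0, div_le_iff₀ hp1] at this
    simp only [Pi.zero_apply]
    apply div_nonneg _ hp.le
    linarith
  rw [← ofReal_integral_eq_lintegral_ofReal (hcont.integrableOn_Icc) hnn]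
  apply ENNReal.ofReal_le_ofReal
  apply le_of_eq
  rw [integral_Icc_eq_integral_Ioc, ← intervalIntegral.integral_of_le hab]
  have hderiv : ∀ x ∈ uIcc a0 b0, HasDerivAt (fun y : ℝ => (h2 + h3 + p1 * y) ^ 2 / (2 * p1 * p))
      ((h2 + h3 + p1 * x) / p) x := by
    intro x _
    have h0 : HasDerivAt (fun y : ℝ => h2 + h3 + p1 * y) p1 x := by
      simpa using ((hasDerivAt_id x).const_mul p1).const_add (h2 + h3)
    refine ((h0.pow 2).div_const (2 * p1 * p)).congr_deriv ?_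
    field_simp
    norm_num
    ring
  rw [intervalIntegral.integral_eq_sub_of_hasDerivAt hderiv (hcont.intervalIntegrable _ _)]
  have e1 : h2 + h3 + p1 * b0 = h1 + h2 + h3 := by
    rw [hb0]
    field_simp
    ring
  have e2 : h2 + h3 + p1 * a0 = 0 := by
    rw [ha0]
    field_simp
    ring
  rw [e1, e2]
  ring

/-- the radial integral -/
lemma radial_integral {b : ℝ} (hb : 0 ≤ b) :
    ∫ r in Ioi (0 : ℝ), r * ph r * (1 - Real.exp (-b * r ^ 2 / 2)) = ph 0 * b / (1 + b) := by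
  have hb1 : 0 < 1 + b := by linarith
  set c0 : ℝ := (√(2 * π))⁻¹ with hc0
  have hc00 : 0 < c0 := by positivity
  have hph : ∀ r : ℝ, ph r = c0 * Real.exp (-r ^ 2 / 2) := fun r => rfl
  have hph0 : ph 0 = c0 := by simp [hph]
  set g : ℝ → ℝ := fun r => c0 * (-Real.exp (-r ^ 2 / 2) + Real.exp (-(1 + b) * r ^ 2 / 2) / (1 + b)) with hg
  have hderiv : ∀ x ∈ Ici (0 : ℝ), HasDerivAt g (x * ph x * (1 - Real.exp (-b * x ^ 2 / 2))) x := by
    intro x _
    have h0 : ∀ c : ℝ, HasDerivAt (fun y : ℝ => Real.exp (-c * y ^ 2 / 2))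
        (Real.exp (-c * x ^ 2 / 2) * (-c * x)) x := by
      intro c
      have h1 : HasDerivAt (fun y : ℝ => -c * y ^ 2 / 2) (-c * x) x := by
        have := ((hasDerivAt_pow 2 x).const_mul (-c)).div_const 2
        refine this.congr_deriv ?_
        simp
        ring
      exact h1.exp
    have h1 := h0 1
    have h2 := h0 (1 + b)
    simp only [neg_mul, one_mul] at h1
    have h3 := ((h1.fun_neg).add (h2.div_const (1 + b))).const_mul c0
    refine (h3.congr_deriv ?_).congr_of_eventuallyEq ?_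
    · rw [hph]
      have e1 : Real.exp (-(1 + b) * x ^ 2 / 2) = Real.exp (-x ^ 2 / 2) * Real.exp (-b * x ^ 2 / 2) := by
        rw [← Real.exp_add]
        congr 1
        ring
      rw [e1]
      field_simp
      ring
    · refine Eventually.of_forall fun y => ?_
      simp only [hg, Pi.add_apply]
  have hnn : ∀ x ∈ Ioi (0 : ℝ), 0 ≤ x * ph x * (1 - Real.exp (-b * x ^ 2 / 2)) := by
    intro x hx
    have hx' : 0 < x := hx
    have : Real.exp (-b * x ^ 2 / 2) ≤ 1 := by
      apply Real.exp_le_one_iff.2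
      have : 0 ≤ b * x ^ 2 := by positivity
      linarith
    exact mul_nonneg (mul_nonneg hx'.le (ph_pos _).le) (by linarith)
  have hlim0 : ∀ c : ℝ, 0 < c → Tendsto (fun r : ℝ => Real.exp (-c * r ^ 2 / 2)) atTop (𝓝 0) := by
    intro c hc
    apply Real.tendsto_exp_atBot.comp
    have h2 : Tendsto (fun y : ℝ => y ^ 2) atTop atTop := tendsto_pow_atTop two_ne_zero
    have h3 := h2.const_mul_atTop_of_neg (r := (-c / 2 : ℝ)) (by linarith)
    refine h3.congr ?_
    intro y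
    ring
  have hlim : Tendsto g atTop (𝓝 (c0 * (-0 + 0 / (1 + b)))) := by
    apply Tendsto.const_mul
    apply Tendsto.add
    · apply Tendsto.neg
      have := hlim0 1 one_pos
      simpa using this
    · exact (hlim0 (1 + b) hb1).div_const _
  have key := integral_Ioi_of_hasDerivAt_of_nonneg' hderiv hnn hlim
  rw [key, hph0]
  simp only [hg]
  simp
  field_simp
  ring

/-- the first moment with the bathtub weight against the one dimensional Gaussian -/
lemma lintegral_radial {b : ℝ} (hb : 0 ≤ b) :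
    ∫⁻ r, ENNReal.ofReal (max r 0 * (1 - Real.exp (-b * r ^ 2 / 2))) ∂(gaussianReal 0 1) =
      ENNReal.ofReal (ph 0 * b / (1 + b)) := by
  rw [gaussianReal_of_var_ne_zero 0 one_ne_zero,
    lintegral_withDensity_eq_lintegral_mul _ (measurable_gaussianPDF 0 1) (by fun_prop)]
  have h1 : ∀ r : ℝ, (gaussianPDF 0 1 * fun r => ENNReal.ofReal (max r 0 * (1 - Real.exp (-b * r ^ 2 / 2)))) r =
      (Ioi (0 : ℝ)).indicator (fun r => ENNReal.ofReal (r * ph r * (1 - Real.exp (-b * r ^ 2 / 2)))) r := by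
    intro r
    simp only [Pi.mul_apply, gaussianPDF_eq_ofReal]
    by_cases hr : r ∈ Ioi (0 : ℝ)
    · rw [indicator_of_mem hr, max_eq_left (le_of_lt hr), ← ENNReal.ofReal_mul (ph_pos _).le]
      congr 1
      ring
    · rw [indicator_of_notMem hr]
      have hr' : r ≤ 0 := not_lt.1 hr
      rw [max_eq_right hr']
      simp
  simp_rw [h1]
  rw [lintegral_indicator measurableSet_Ioi,
    ← ofReal_integral_eq_lintegral_ofReal, radial_integral hb]
  · -- integrability
    have hi : Integrable (fun r => r * ph r) := integrable_id_mul_ph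
    refine (hi.integrableOn (s := Ioi 0)).mono' ?_ ?_
    · exact Continuous.aestronglyMeasurable (by
        have := continuous_ph
        fun_prop)
    · rw [ae_restrict_iff' measurableSet_Ioi]
      refine Eventually.of_forall fun x hx => ?_
      have hx' : 0 < x := hx
      have h2 : Real.exp (-b * x ^ 2 / 2) ≤ 1 := by
        apply Real.exp_le_one_iff.2
        have : 0 ≤ b * x ^ 2 := by positivity
        linarith
      have h3 : 0 ≤ x * ph x := mul_nonneg hx'.le (ph_pos _).le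
      rw [Real.norm_eq_abs, abs_of_nonneg (mul_nonneg h3 (by linarith [Real.exp_pos (-b * x ^ 2 / 2)]))]
      nlinarith [Real.exp_pos (-b * x ^ 2 / 2)]
  · rw [EventuallyLE, ae_restrict_iff' measurableSet_Ioi]
    refine Eventually.of_forall fun x hx => ?_
    have hx' : 0 < x := hx
    have h2 : Real.exp (-b * x ^ 2 / 2) ≤ 1 := by
      apply Real.exp_le_one_iff.2
      have : 0 ≤ b * x ^ 2 := by positivity
      linarith
    exact mul_nonneg (mul_nonneg hx'.le (ph_pos _).le) (by simpa using h2)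

section flux

variable {E : Type*} [NormedAddCommGroup E] [InnerProductSpace ℝ E] [FiniteDimensional ℝ E]
  [MeasurableSpace E] [BorelSpace E]

omit [FiniteDimensional ℝ E] in
lemma measurable_inner_const (u : E) : Measurable (fun x : E => ⟪u, x⟫) :=
  (continuous_const.inner continuous_id).measurable

/-- three orthonormal coordinates -/
lemma lintegral_three {e f1 f2 : E} (he : ‖e‖ = 1) (h1 : ‖f1‖ = 1) (h2 : ‖f2‖ = 1)
    (h12 : ⟪f1, f2⟫ = 0) (he1 : ⟪e, f1⟫ = 0) (he2 : ⟪e, f2⟫ = 0)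
    {H : ℝ × ℝ × ℝ → ℝ≥0∞} (hH : Measurable H) :
    ∫⁻ x, H (⟪e, x⟫, ⟪f1, x⟫, ⟪f2, x⟫) ∂(stdGaussian E) =
      ∫⁻ r, ∫⁻ g1, ∫⁻ g2, H (r, g1, g2) ∂(gaussianReal 0 1) ∂(gaussianReal 0 1)
        ∂(gaussianReal 0 1) := by
  have me := measurable_inner_const e
  have m1 := measurable_inner_const f1
  have m2 := measurable_inner_const f2
  have hself : ∀ u : E, ‖u‖ = 1 → ⟪u, u⟫ = 1 := by
    intro u hu
    rw [real_inner_self_eq_norm_sq, hu, one_pow]
  -- slice along `f2`
  have s2 := lintegral_slice f2 h2 (f := fun x => H (⟪e, x⟫, ⟪f1, x⟫, ⟪f2, x⟫))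
    (hH.comp (me.prodMk (m1.prodMk m2)))
  have e2 : ∀ (x : E) (g : ℝ), H (⟪e, slice f2 (x, g)⟫, ⟪f1, slice f2 (x, g)⟫, ⟪f2, slice f2 (x, g)⟫) =
      H (⟪e, x⟫, ⟪f1, x⟫, g) := by
    intro x g
    rw [inner_slice, inner_slice, inner_slice, he2, h12, hself f2 h2]
    congr 3 <;> ring
  simp_rw [e2] at s2
  rw [s2]
  -- slice along `f1`
  set K1 : ℝ × ℝ → ℝ≥0∞ := fun a => ∫⁻ g, H (a.1, a.2, g) ∂(gaussianReal 0 1) with hK1
  have mK1 : Measurable K1 := by
    have : Measurable (fun z : (ℝ × ℝ) × ℝ => H (z.1.1, z.1.2, z.2)) :=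
      hH.comp (by fun_prop)
    exact this.lintegral_prod_right'
  have s1 := lintegral_slice f1 h1 (f := fun x => K1 (⟪e, x⟫, ⟪f1, x⟫)) (mK1.comp (me.prodMk m1))
  have e1 : ∀ (x : E) (g : ℝ), K1 (⟪e, slice f1 (x, g)⟫, ⟪f1, slice f1 (x, g)⟫) = K1 (⟪e, x⟫, g) := by
    intro x g
    rw [inner_slice, inner_slice, he1, hself f1 h1]
    congr 2 <;> ring
  simp_rw [e1] at s1
  have s1' : ∫⁻ x, ∫⁻ g, H (⟪e, x⟫, ⟪f1, x⟫, g) ∂(gaussianReal 0 1) ∂(stdGaussian E) =
      ∫⁻ x, ∫⁻ g1, K1 (⟪e, x⟫, g1) ∂(gaussianReal 0 1) ∂(stdGaussian E) := s1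
  rw [s1']
  -- slice along `e`
  set K2 : ℝ → ℝ≥0∞ := fun a => ∫⁻ g1, K1 (a, g1) ∂(gaussianReal 0 1) with hK2
  have mK2 : Measurable K2 := by
    have : Measurable (fun z : ℝ × ℝ => K1 (z.1, z.2)) := mK1
    exact this.lintegral_prod_right'
  have s0 := lintegral_slice e he (f := fun x => K2 ⟪e, x⟫) (mK2.comp me)
  have e0 : ∀ (x : E) (g : ℝ), K2 ⟪e, slice e (x, g)⟫ = K2 g := by
    intro x g
    rw [inner_slice, hself e he]
    congr 1
    ring
  simp_rw [e0] at s0
  have s0' : ∫⁻ x, ∫⁻ g1, K1 (⟪e, x⟫, g1) ∂(gaussianReal 0 1) ∂(stdGaussian E) =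
      ∫⁻ x, ∫⁻ r, K2 r ∂(gaussianReal 0 1) ∂(stdGaussian E) := s0
  rw [s0', lintegral_const]
  simp [K2, K1]

/-- **The flux bound.** The first moment along the axis of the cone over a triangle is at most the first
moment of the round cone whose sections have the same areas. -/
theorem flux_bath (e t1 t2 t3 : E) (he : ‖e‖ = 1) (h1 : ⟪e, t1⟫ = 0) (h2 : ⟪e, t2⟫ = 0)
    (h3 : t1 + t2 + t3 = 0) {W1 W2 W3 s K : ℝ}
    (hK : W1 + W2 + W3 = K) (hK0 : 0 < K) (hs : 0 < s)
    (hG : 0 < ‖t1‖ ^ 2 * ‖t2‖ ^ 2 - ⟪t1, t2⟫ ^ 2) :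
    ∫ x in {x : E | ⟪t1, x⟫ ≤ W1 * s * ⟪e, x⟫ ∧ ⟪t2, x⟫ ≤ W2 * s * ⟪e, x⟫ ∧ ⟪t3, x⟫ ≤ W3 * s * ⟪e, x⟫},
        ⟪e, x⟫ ∂(stdGaussian E) ≤
      ph 0 * (K ^ 2 * s ^ 2 / (2 * π * √(‖t1‖ ^ 2 * ‖t2‖ ^ 2 - ⟪t1, t2⟫ ^ 2))) /
        (1 + K ^ 2 * s ^ 2 / (2 * π * √(‖t1‖ ^ 2 * ‖t2‖ ^ 2 - ⟪t1, t2⟫ ^ 2))) := by
  classical
  set G := ‖t1‖ ^ 2 * ‖t2‖ ^ 2 - ⟪t1, t2⟫ ^ 2 with hGdef
  have hp1 : 0 < ‖t1‖ := by
    rcases (norm_nonneg t1).lt_or_eq with h | h
    · exact h
    · exfalso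
      have h0 : t1 = 0 := norm_eq_zero.1 h.symm
      rw [hGdef, h0] at hG
      simp at hG
  set p1 := ‖t1‖ with hp1def
  obtain ⟨f1, hf1n, ht1⟩ : ∃ f1 : E, ‖f1‖ = 1 ∧ t1 = p1 • f1 := by
    refine ⟨p1⁻¹ • t1, ?_, ?_⟩
    · rw [norm_smul, Real.norm_eq_abs, abs_of_pos (inv_pos.2 hp1), ← hp1def,
        inv_mul_cancel₀ hp1.ne']
    · rw [smul_smul, mul_inv_cancel₀ hp1.ne', one_smul]
  set q : ℝ := ⟪f1, t2⟫ with hq
  have hself1 : ⟪f1, f1⟫ = 1 := by rw [real_inner_self_eq_norm_sq, hf1n, one_pow]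
  have hq' : ⟪t1, t2⟫ = p1 * q := by
    rw [ht1, real_inner_smul_left]
  have ht2'n : ‖t2 - q • f1‖ ^ 2 = ‖t2‖ ^ 2 - q ^ 2 := by
    rw [← real_inner_self_eq_norm_sq, ← real_inner_self_eq_norm_sq]
    have hq2 : ⟪t2, f1⟫ = q := by rw [real_inner_comm]
    simp only [inner_sub_left, inner_sub_right, real_inner_smul_left, real_inner_smul_right,
      hself1, hq2]
    ring
  have hGp : G = p1 ^ 2 * ‖t2 - q • f1‖ ^ 2 := by
    rw [hGdef, ht2'n, hq']
    ring
  have hp : 0 < ‖t2 - q • f1‖ := by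
    rcases (norm_nonneg (t2 - q • f1)).lt_or_eq with h | h
    · exact h
    · exfalso
      rw [← h] at hGp
      simp only [ne_eq, OfNat.ofNat_ne_zero, not_false_eq_true, zero_pow, mul_zero] at hGp
      rw [hGp] at hG
      exact lt_irrefl _ hG
  set p := ‖t2 - q • f1‖ with hpdef
  obtain ⟨f2, hf2n, ht2, hf12⟩ : ∃ f2 : E, ‖f2‖ = 1 ∧ t2 = q • f1 + p • f2 ∧ ⟪f1, f2⟫ = 0 := by
    refine ⟨p⁻¹ • (t2 - q • f1), ?_, ?_, ?_⟩
    · rw [norm_smul, Real.norm_eq_abs, abs_of_pos (inv_pos.2 hp), ← hpdef, inv_mul_cancel₀ hp.ne']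
    · rw [smul_smul, mul_inv_cancel₀ hp.ne', one_smul]
      abel
    · rw [real_inner_smul_right, inner_sub_right, real_inner_smul_right, hself1, ← hq]
      ring
  have hsq : √G = p1 * p := by
    rw [hGp, ← mul_pow, Real.sqrt_sq (by positivity)]
  have he1 : ⟪e, f1⟫ = 0 := by
    have : p1 * ⟪e, f1⟫ = 0 := by
      rw [← real_inner_smul_right, ← ht1, h1]
    exact (mul_eq_zero.1 this).resolve_left hp1.ne'
  have he2 : ⟪e, f2⟫ = 0 := by
    have : p * ⟪e, f2⟫ = 0 := by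
      rw [← real_inner_smul_right]
      have h5 : p • f2 = t2 - q • f1 := by
        rw [ht2]
        abel
      rw [h5, inner_sub_right, real_inner_smul_right, he1, h2]
      ring
    exact (mul_eq_zero.1 this).resolve_left hp.ne'
  have hx1 : ∀ x : E, ⟪t1, x⟫ = p1 * ⟪f1, x⟫ := by
    intro x
    rw [ht1, real_inner_smul_left]
  have hx2 : ∀ x : E, ⟪t2, x⟫ = q * ⟪f1, x⟫ + p * ⟪f2, x⟫ := by
    intro x
    rw [ht2, inner_add_left, real_inner_smul_left, real_inner_smul_left]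
  have hx3 : ∀ x : E, ⟪t3, x⟫ = -(p1 + q) * ⟪f1, x⟫ - p * ⟪f2, x⟫ := by
    intro x
    have ht3 : t3 = -t1 - t2 := by
      have : t3 = (t1 + t2 + t3) - t1 - t2 := by abel
      rw [this, h3]
      abel
    rw [ht3, inner_sub_left, inner_neg_left, hx1, hx2]
    ring
  set C : Set E := {x : E | ⟪t1, x⟫ ≤ W1 * s * ⟪e, x⟫ ∧ ⟪t2, x⟫ ≤ W2 * s * ⟪e, x⟫ ∧
    ⟪t3, x⟫ ≤ W3 * s * ⟪e, x⟫} with hC
  have me := measurable_inner_const e
  have hCm : MeasurableSet C := by
    have c0 : Continuous (fun x : E => ⟪e, x⟫) := continuous_const.inner continuous_id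
    have c1 : Continuous (fun x : E => ⟪t1, x⟫) := continuous_const.inner continuous_id
    have c2 : Continuous (fun x : E => ⟪t2, x⟫) := continuous_const.inner continuous_id
    have c3 : Continuous (fun x : E => ⟪t3, x⟫) := continuous_const.inner continuous_id
    have b1 : IsClosed {x : E | ⟪t1, x⟫ ≤ W1 * s * ⟪e, x⟫} := isClosed_le c1 (continuous_const.mul c0)
    have b2 : IsClosed {x : E | ⟪t2, x⟫ ≤ W2 * s * ⟪e, x⟫} := isClosed_le c2 (continuous_const.mul c0)
    have b3 : IsClosed {x : E | ⟪t3, x⟫ ≤ W3 * s * ⟪e, x⟫} := isClosed_le c3 (continuous_const.mul c0)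
    exact (b1.inter (b2.inter b3)).measurableSet
  have hrC : ∀ x ∈ C, 0 ≤ ⟪e, x⟫ := by
    intro x hx
    obtain ⟨a1, a2, a3⟩ := hx
    have h0 : ⟪t1, x⟫ + ⟪t2, x⟫ + ⟪t3, x⟫ = 0 := by
      rw [← inner_add_left, ← inner_add_left, h3, inner_zero_left]
    have h4 : 0 ≤ K * s * ⟪e, x⟫ := by
      rw [← hK]
      nlinarith
    by_contra hneg
    push Not at hneg
    have : K * s * ⟪e, x⟫ < 0 := mul_neg_of_pos_of_neg (by positivity) hneg
    linarith
  set H : ℝ × ℝ × ℝ → ℝ≥0∞ := fun z =>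
    if (z.2.1, z.2.2) ∈ tri p1 p q (W1 * s * z.1) (W2 * s * z.1) (W3 * s * z.1) then ENNReal.ofReal z.1 else 0 with hH
  have hHm : Measurable H := by
    apply Measurable.ite
    · have b1 : IsClosed {z : ℝ × ℝ × ℝ | p1 * z.2.1 ≤ W1 * s * z.1} :=
        isClosed_le (by fun_prop) (by fun_prop)
      have b2 : IsClosed {z : ℝ × ℝ × ℝ | q * z.2.1 + p * z.2.2 ≤ W2 * s * z.1} :=
        isClosed_le (by fun_prop) (by fun_prop)
      have b3 : IsClosed {z : ℝ × ℝ × ℝ | -(p1 + q) * z.2.1 - p * z.2.2 ≤ W3 * s * z.1} :=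
        isClosed_le (by fun_prop) (by fun_prop)
      exact (b1.inter (b2.inter b3)).measurableSet
    · fun_prop
    · exact measurable_const
  have hind : ∀ x : E, C.indicator (fun x => ENNReal.ofReal ⟪e, x⟫) x =
      H (⟪e, x⟫, ⟪f1, x⟫, ⟪f2, x⟫) := by
    intro x
    have hiff : x ∈ C ↔ (⟪f1, x⟫, ⟪f2, x⟫) ∈ tri p1 p q (W1 * s * ⟪e, x⟫) (W2 * s * ⟪e, x⟫) (W3 * s * ⟪e, x⟫) := by
      simp only [hC, tri, mem_ofPred_eq, hx1, hx2, hx3]
    by_cases hx : x ∈ C
    · rw [indicator_of_mem hx]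
      simp only [hH]
      rw [if_pos (hiff.1 hx)]
    · rw [indicator_of_notMem hx]
      simp only [hH]
      rw [if_neg (fun h => hx (hiff.2 h))]
  set b : ℝ := K ^ 2 * s ^ 2 / (2 * π * √G) with hb
  have hpi := pi_pos
  have hsqpos : 0 < √G := by
    rw [hsq]
    positivity
  have hb0 : 0 ≤ b := by positivity
  -- the inner bound for each height
  have hinner : ∀ r : ℝ, ∫⁻ g1, ∫⁻ g2, H (r, g1, g2) ∂(gaussianReal 0 1) ∂(gaussianReal 0 1) ≤
      ENNReal.ofReal (max r 0 * (1 - Real.exp (-b * r ^ 2 / 2))) := by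
    intro r
    rcases le_or_gt r 0 with hr | hr
    · have : ∀ g1 g2 : ℝ, H (r, g1, g2) = 0 := by
        intro g1 g2
        simp only [hH]
        rw [ENNReal.ofReal_of_nonpos hr]
        simp
      simp [this]
    · set T := tri p1 p q (W1 * s * r) (W2 * s * r) (W3 * s * r) with hT
      have hTm : MeasurableSet T := measurableSet_tri _ _ _ _ _ _
      have hH1 : ∀ g1 g2 : ℝ, H (r, g1, g2) = T.indicator (fun _ => ENNReal.ofReal r) (g1, g2) := by
        intro g1 g2
        simp only [hH, indicator, ← hT]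
      simp_rw [hH1]
      have hprod : ∫⁻ g1, ∫⁻ g2, T.indicator (fun _ => ENNReal.ofReal r) (g1, g2) ∂(gaussianReal 0 1) ∂(gaussianReal 0 1) =
          ∫⁻ z, T.indicator (fun _ => ENNReal.ofReal r) z ∂G2 := by
        unfold G2
        rw [lintegral_prod _ ((measurable_const.indicator hTm).aemeasurable)]
      rw [hprod, lintegral_indicator_const hTm]
      have hsum : W1 * s * r + W2 * s * r + W3 * s * r = K * s * r := by
        rw [← hK]
        ring
      have hvol : volume T ≤ ENNReal.ofReal ((K * s * r) ^ 2 / (2 * p1 * p)) := by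
        have := volume_tri q (W1 * s * r) (W2 * s * r) (W3 * s * r) hp1 hp (by rw [hsum]; positivity)
        rwa [hsum] at this
      have hle := G2_le hTm (A := (K * s * r) ^ 2 / (2 * p1 * p)) (by positivity) hvol
      have hexpo : -((K * s * r) ^ 2 / (2 * p1 * p)) / (2 * π) = -b * r ^ 2 / 2 := by
        rw [hb, hsq]
        field_simp
      rw [hexpo] at hle
      rw [max_eq_left hr.le, ENNReal.ofReal_mul hr.le]
      apply mul_le_mul_right
      rw [← ofReal_measureReal (μ := G2) (s := T)]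
      exact ENNReal.ofReal_le_ofReal hle
  -- assembling
  have hnn : 0 ≤ᵐ[(stdGaussian E).restrict C] (fun x => ⟪e, x⟫) := by
    rw [EventuallyLE, ae_restrict_iff' hCm]
    exact Eventually.of_forall fun x hx => hrC x hx
  rw [integral_eq_lintegral_of_nonneg_ae hnn me.aestronglyMeasurable]
  apply ENNReal.toReal_le_of_le_ofReal
  · have : 0 < ph 0 := ph_pos 0
    positivity
  rw [← lintegral_indicator hCm]
  simp_rw [hind]
  rw [lintegral_three he hf1n hf2n hf12 he1 he2 hHm, ← lintegral_radial hb0]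
  exact lintegral_mono hinner

end flux

end Vale.Agent.P226h2
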