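import Vale.Agent.P226h14.OneDim

/-!
# The planar Gaussian bathtub bound

For a measurable set `T` of the plane with area at most `A`, the standard Gaussian measure of `T` is
at most `1 - exp (-A / (2 π))`, the measure of the centered disc of area `A`.
-/

open MeasureTheory ProbabilityTheory Real Set Filter Topology
open scoped ENNReal NNReal

namespace Vale.Agent.P226h2

open Vale.Agent.P226h14

/-- the planar standard Gaussian measure -/
noncomputable def G2 : Measure (ℝ × ℝ) := (gaussianReal 0 1).prod (gaussianReal 0 1)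

instance : IsProbabilityMeasure G2 := by unfold G2; infer_instance

/-- the planar standard Gaussian density -/
noncomputable def F2 (p : ℝ × ℝ) : ℝ := ph p.1 * ph p.2

lemma F2_nonneg (p : ℝ × ℝ) : 0 ≤ F2 p := mul_nonneg (ph_pos _).le (ph_pos _).le

lemma F2_eq (p : ℝ × ℝ) : F2 p = (2 * π)⁻¹ * Real.exp (-(p.1 ^ 2 + p.2 ^ 2) / 2) := by
  unfold F2 ph
  have h : (√(2 * π))⁻¹ * (√(2 * π))⁻¹ = (2 * π)⁻¹ := by
    rw [← mul_inv, Real.mul_self_sqrt (by positivity)]
  have h2 : Real.exp (-(p.1 ^ 2 + p.2 ^ 2) / 2) = Real.exp (-p.1 ^ 2 / 2) * Real.exp (-p.2 ^ 2 / 2) := by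
    rw [← Real.exp_add]
    congr 1
    ring
  rw [h2, ← h]
  ring

lemma continuous_ph : Continuous ph := by
  unfold ph
  fun_prop

lemma continuous_F2 : Continuous F2 := by
  unfold F2
  exact (continuous_ph.comp continuous_fst).mul (continuous_ph.comp continuous_snd)

lemma integrable_F2 : Integrable F2 := by
  have h := Integrable.mul_prod (μ := (volume : Measure ℝ)) (ν := (volume : Measure ℝ)) integrable_ph integrable_ph
  exact h

lemma gaussianPDF_eq_ofReal (x : ℝ) : gaussianPDF 0 1 x = ENNReal.ofReal (ph x) := by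
  rw [gaussianPDF_def]
  simp only [gaussianPDFReal_eq_ph]

lemma G2_eq : G2 = (volume : Measure (ℝ × ℝ)).withDensity (fun z => ENNReal.ofReal (F2 z)) := by
  unfold G2
  rw [gaussianReal_of_var_ne_zero 0 one_ne_zero,
    prod_withDensity (measurable_gaussianPDF 0 1) (measurable_gaussianPDF 0 1)]
  have : (volume : Measure (ℝ × ℝ)) = (volume : Measure ℝ).prod volume := rfl
  rw [this]
  congr 1
  funext z
  rw [gaussianPDF_eq_ofReal, gaussianPDF_eq_ofReal, F2, ENNReal.ofReal_mul (ph_pos _).le]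

lemma G2_real_eq {T : Set (ℝ × ℝ)} (hT : MeasurableSet T) : G2.real T = ∫ p in T, F2 p := by
  rw [measureReal_def, G2_eq, withDensity_apply _ hT,
    ← ofReal_integral_eq_lintegral_ofReal integrable_F2.integrableOn
      (Eventually.of_forall F2_nonneg)]
  exact ENNReal.toReal_ofReal (integral_nonneg F2_nonneg)

/-- the excess function, in polar form -/
lemma polar_F2 (p : ℝ × ℝ) :
    F2 (polarCoord.symm p) = (2 * π)⁻¹ * Real.exp (-p.1 ^ 2 / 2) := by
  rw [F2_eq, polarCoord_symm_apply]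
  congr 2
  simp only
  have := Real.sin_sq_add_cos_sq p.2
  nlinarith

/-- the one dimensional excess integral -/
lemma integral_excess_radial {R : ℝ} (hR : 0 ≤ R) :
    ∫ ρ in Ioi (0 : ℝ), ρ * max (Real.exp (-ρ ^ 2 / 2) - Real.exp (-R ^ 2 / 2)) 0 =
      1 - Real.exp (-R ^ 2 / 2) * (1 + R ^ 2 / 2) := by
  set c := Real.exp (-R ^ 2 / 2) with hc
  have hsplit : Ioi (0 : ℝ) = Ioc 0 R ∪ Ioi R := (Ioc_union_Ioi_eq_Ioi hR).symm
  have hzero : ∀ ρ ∈ Ioi R, ρ * max (Real.exp (-ρ ^ 2 / 2) - c) 0 = 0 := by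
    intro ρ hρ
    have hρ' : R < ρ := hρ
    have h1 : Real.exp (-ρ ^ 2 / 2) ≤ c := by
      rw [hc]
      apply Real.exp_le_exp.2
      nlinarith
    rw [max_eq_right (by linarith)]
    ring
  have hpos : ∀ ρ ∈ Ioc (0 : ℝ) R, ρ * max (Real.exp (-ρ ^ 2 / 2) - c) 0 =
      ρ * (Real.exp (-ρ ^ 2 / 2) - c) := by
    intro ρ hρ
    have h1 : c ≤ Real.exp (-ρ ^ 2 / 2) := by
      rw [hc]
      apply Real.exp_le_exp.2
      nlinarith [hρ.1, hρ.2]
    rw [max_eq_left (by linarith)]
  have hint2 : IntegrableOn (fun ρ : ℝ => ρ * max (Real.exp (-ρ ^ 2 / 2) - c) 0) (Ioi R) := by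
    apply (integrableOn_zero (μ := volume) (s := Ioi R)).congr_fun _ measurableSet_Ioi
    intro ρ hρ
    exact (hzero ρ hρ).symm
  have hcontf : Continuous (fun ρ : ℝ => ρ * (Real.exp (-ρ ^ 2 / 2) - c)) := by fun_prop
  have hint1 : IntegrableOn (fun ρ : ℝ => ρ * max (Real.exp (-ρ ^ 2 / 2) - c) 0) (Ioc 0 R) := by
    have : IntegrableOn (fun ρ : ℝ => ρ * (Real.exp (-ρ ^ 2 / 2) - c)) (Ioc 0 R) :=
      (hcontf.integrableOn_Icc (a := 0) (b := R)).mono_set Ioc_subset_Icc_self
    refine this.congr_fun ?_ measurableSet_Ioc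
    intro ρ hρ
    exact (hpos ρ hρ).symm
  rw [hsplit, setIntegral_union Ioc_disjoint_Ioi_same measurableSet_Ioi hint1 hint2,
    setIntegral_congr_fun measurableSet_Ioi hzero, setIntegral_congr_fun measurableSet_Ioc hpos]
  simp only [integral_zero, add_zero]
  rw [← intervalIntegral.integral_of_le hR]
  have hderiv : ∀ ρ ∈ uIcc 0 R, HasDerivAt (fun y : ℝ => -Real.exp (-y ^ 2 / 2) - c * (y ^ 2 / 2))
      (ρ * (Real.exp (-ρ ^ 2 / 2) - c)) ρ := by
    intro ρ _
    have h0 : HasDerivAt (fun y : ℝ => -y ^ 2 / 2) (-ρ) ρ := by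
      have := ((hasDerivAt_pow 2 ρ).fun_neg).div_const 2
      refine this.congr_deriv ?_
      simp
      ring
    have h1 := (h0.exp).fun_neg
    have h2 : HasDerivAt (fun y : ℝ => c * (y ^ 2 / 2)) (c * ρ) ρ := by
      have := ((hasDerivAt_pow 2 ρ).div_const 2).const_mul c
      refine this.congr_deriv ?_
      simp
    refine (h1.sub h2).congr_deriv ?_
    ring
  rw [intervalIntegral.integral_eq_sub_of_hasDerivAt hderiv (hcontf.intervalIntegrable _ _)]
  simp only [hc]
  simp
  ring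

/-- the excess integral over the plane -/
lemma integral_excess {R : ℝ} (hR : 0 ≤ R) :
    ∫ p, max (F2 p - (2 * π)⁻¹ * Real.exp (-R ^ 2 / 2)) 0 =
      1 - Real.exp (-R ^ 2 / 2) * (1 + R ^ 2 / 2) := by
  rw [← integral_comp_polarCoord_symm]
  have h1 : ∀ p ∈ polarCoord.target, p.1 • max (F2 (polarCoord.symm p) -
      (2 * π)⁻¹ * Real.exp (-R ^ 2 / 2)) 0 =
      (2 * π)⁻¹ * (p.1 * max (Real.exp (-p.1 ^ 2 / 2) - Real.exp (-R ^ 2 / 2)) 0) * 1 := by
    intro p _
    rw [polar_F2, ← mul_sub, smul_eq_mul]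
    have hpos : (0 : ℝ) < (2 * π)⁻¹ := by positivity
    rw [show max ((2 * π)⁻¹ * (Real.exp (-p.1 ^ 2 / 2) - Real.exp (-R ^ 2 / 2))) 0 =
      (2 * π)⁻¹ * max (Real.exp (-p.1 ^ 2 / 2) - Real.exp (-R ^ 2 / 2)) 0 by
        rw [mul_max_of_nonneg _ _ hpos.le, mul_zero]]
    ring
  rw [setIntegral_congr_fun polarCoord.open_target.measurableSet h1, polarCoord_target,
    Measure.volume_eq_prod, ← Measure.prod_restrict,
    integral_prod_mul (fun ρ : ℝ => (2 * π)⁻¹ * (ρ * max (Real.exp (-ρ ^ 2 / 2) - Real.exp (-R ^ 2 / 2)) 0))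
      (fun _ : ℝ => (1 : ℝ)), integral_const_mul, integral_excess_radial hR]
  simp
  have hpi : π ≠ 0 := pi_ne_zero
  have h2 : π⁻¹ * 2⁻¹ * (π + π) = 1 := by
    field_simp
    ring
  have hpp : max (π + π) 0 = π + π := max_eq_left (by linarith [pi_pos])
  rw [hpp]
  calc _ = (π⁻¹ * 2⁻¹ * (π + π)) * (1 - rexp (-R ^ 2 / 2) * (1 + R ^ 2 / 2)) := by ring
    _ = _ := by rw [h2, one_mul]

/-- **The planar bathtub bound.** -/
theorem G2_le {T : Set (ℝ × ℝ)} (hT : MeasurableSet T) {A : ℝ} (hA : 0 ≤ A)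
    (hvol : volume T ≤ ENNReal.ofReal A) :
    G2.real T ≤ 1 - Real.exp (-A / (2 * π)) := by
  have hpi := pi_pos
  set R : ℝ := √(A / π) with hR
  have hR0 : 0 ≤ R := Real.sqrt_nonneg _
  have hR2 : R ^ 2 = A / π := Real.sq_sqrt (by positivity)
  have hexp : -R ^ 2 / 2 = -A / (2 * π) := by
    rw [hR2]
    field_simp
  set c := Real.exp (-A / (2 * π)) with hc
  set l := (2 * π)⁻¹ * c with hl
  have hl0 : 0 ≤ l := by positivity
  have hfin : volume T ≠ ∞ := ne_top_of_le_ne_top ENNReal.ofReal_ne_top hvol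
  have hvolr : volume.real T ≤ A := by
    rw [measureReal_def]
    exact ENNReal.toReal_le_of_le_ofReal hA hvol
  have hex : Integrable (fun p => max (F2 p - l) 0) := by
    refine Integrable.mono' integrable_F2 ?_ ?_
    · exact (((continuous_F2.sub continuous_const).max continuous_const)).aestronglyMeasurable
    · refine Eventually.of_forall fun p => ?_
      rw [Real.norm_eq_abs, abs_of_nonneg (le_max_right _ _)]
      exact max_le (by linarith) (F2_nonneg p)
  have h1 : ∫ p in T, F2 p ≤ ∫ p in T, (l + max (F2 p - l) 0) := by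
    apply integral_mono integrable_F2.integrableOn
    · exact (integrableOn_const (C := l) hfin).add hex.integrableOn
    · intro p
      simp only
      linarith [le_max_left (F2 p - l) 0]
  have h2 : ∫ p in T, (l + max (F2 p - l) 0) = l * volume.real T + ∫ p in T, max (F2 p - l) 0 := by
    rw [integral_add (integrableOn_const (C := l) hfin) hex.integrableOn]
    simp [mul_comm]
  have h3 : ∫ p in T, max (F2 p - l) 0 ≤ ∫ p, max (F2 p - l) 0 :=
    setIntegral_le_integral hex (Eventually.of_forall fun p => le_max_right _ _)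
  have h4 : ∫ p, max (F2 p - l) 0 = 1 - c * (1 + A / (2 * π)) := by
    have := integral_excess hR0
    rw [hexp, ← hc, ← hl, hR2] at this
    rw [this]
    congr 3
    field_simp
  rw [G2_real_eq hT]
  have h5 : l * volume.real T ≤ l * A := mul_le_mul_of_nonneg_left hvolr hl0
  have h6 : l * A = c * (A / (2 * π)) := by
    rw [hl]
    field_simp
  nlinarith

end Vale.Agent.P226h2
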